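import Vale.Agent.Lib.P126.Homothetic

namespace Vale.Agent.Results.P126.DistortedProducts

open Vale.Agent.Lib.P126
open scoped Pointwise

/-- The duality inequalities of metric entropy, with absolute constants, for products of pairs
of bounded distortion.  Let `K i`, `L i` be origin-symmetric convex bodies in `R^(n i)`
(finitely many, of arbitrary dimensions) such that `c i • K i ⊆ L i ⊆ (c i * d) • K i` for
positive reals `c i` and one `d ≥ 1`.  Then the pair of product bodies `(prod K, prod L)` in the
orthogonal direct sum of the `R^(n i)` satisfies the two duality inequalities at every scale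
`t > 0` with the constants `a = 48 d` and `b = 5`, whatever the number of factors, their
dimensions and the ratios `c i`.  For `d = 1` this is the case `L = prod (c i • K i)`. -/
theorem result {ι : Type} [Fintype ι] (n : ι → ℕ)
    (K L : ∀ i, Set (EuclideanSpace ℝ (Fin (n i))))
    (hK : ∀ i, IsSymmBody (K i)) (hL : ∀ i, IsSymmBody (L i))
    (c : ι → ℝ) (hc : ∀ i, 0 < c i) (d : ℝ) (hd : 1 ≤ d)
    (h1 : ∀ i, c i • K i ⊆ L i) (h2 : ∀ i, L i ⊆ (c i * d) • K i) :
    ∀ t : ℝ, 0 < t →
      (1 / 5) * Real.log (covNum (polarSet (t • prodBody L))
          ((48 * d) • polarSet (prodBody K)))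
        ≤ Real.log (covNum (prodBody K) (t • prodBody L)) ∧
      Real.log (covNum (prodBody K) (t • prodBody L))
        ≤ 5 * Real.log (covNum (polarSet (t • prodBody L))
            ((48 * d)⁻¹ • polarSet (prodBody K))) :=
  duality_block n K L hK hL c hc d hd h1 h2

end Vale.Agent.Results.P126.DistortedProducts
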