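import Vale.Agent.Lib.P126.Ellipsoid

namespace Vale.Agent.Results.P126.EllipsoidProducts

open Vale.Agent.Lib.P126
open scoped Pointwise

/-- The duality inequalities of metric entropy for products of (nearly round, nearly
ellipsoidal) pairs.  Let `K i`, `L i` be origin-symmetric convex bodies in `R^(n i)` (finitely
many, of arbitrary dimensions) and `d ≥ 1`.  Suppose every `K i` is `d`-round
(`r • B ⊆ K i ⊆ d • (r • B)` for some `r > 0`, `B` the Euclidean unit ball) and every `L i` is
`d`-ellipsoidal (`S(B) ⊆ L i ⊆ d • S(B)` for some invertible linear map `S` symmetric for the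
inner product, so that `S(B)` is a centred ellipsoid).  Then the pair of product bodies
`(prod K, prod L)` in the orthogonal direct sum of the `R^(n i)` satisfies the two duality
inequalities at every scale `t > 0` with the constants `a = 16 d ^ 2` and `b = 5`.  For `d = 1`:
`K` is a product of Euclidean balls and `L` a product of ellipsoids. -/
theorem result {ι : Type} [Fintype ι] (n : ι → ℕ)
    (K L : ∀ i, Set (EuclideanSpace ℝ (Fin (n i))))
    (hK : ∀ i, IsSymmBody (K i)) (hL : ∀ i, IsSymmBody (L i)) (d : ℝ) (hd : 1 ≤ d)
    (hKr : ∀ i, IsRound d (K i)) (hLe : ∀ i, IsEllipsoidal d (L i)) :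
    ∀ t : ℝ, 0 < t →
      (1 / 5) * Real.log (covNum (polarSet (t • prodBody L))
          ((16 * d ^ 2) • polarSet (prodBody K)))
        ≤ Real.log (covNum (prodBody K) (t • prodBody L)) ∧
      Real.log (covNum (prodBody K) (t • prodBody L))
        ≤ 5 * Real.log (covNum (polarSet (t • prodBody L))
            ((16 * d ^ 2)⁻¹ • polarSet (prodBody K))) :=
  duality_round_block n K L hK hL d hd hKr hLe

end Vale.Agent.Results.P126.EllipsoidProducts
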