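import Vale.Agent.Lib.P126.Final

namespace Vale.Agent.Results.P126.ProductStability

open Vale.Agent.Lib.P126
open scoped Pointwise

/-- Stability of the duality inequalities of metric entropy under finite products:
if every pair `(K i, t L i)`, `t > 0`, of origin-symmetric convex bodies in `R^(n i)` satisfies
the two duality inequalities with constants `a, b`, then the pair of product bodies
`(prod K, t prod L)` in the orthogonal direct sum of the `R^(n i)` satisfies them with the
constants `16 a, 5 b`, whatever the number of factors. -/
theorem result {ι : Type} [Fintype ι] (n : ι → ℕ)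
    (K L : ∀ i, Set (EuclideanSpace ℝ (Fin (n i))))
    (hK : ∀ i, IsSymmBody (K i)) (hL : ∀ i, IsSymmBody (L i))
    (a b : ℝ) (ha : 1 ≤ a) (hb : 1 ≤ b)
    (hdual : ∀ i, ∀ t : ℝ, 0 < t →
      (1 / b) * Real.log (covNum (polarSet (t • L i)) (a • polarSet (K i)))
        ≤ Real.log (covNum (K i) (t • L i)) ∧
      Real.log (covNum (K i) (t • L i))
        ≤ b * Real.log (covNum (polarSet (t • L i)) (a⁻¹ • polarSet (K i)))) :
    ∀ t : ℝ, 0 < t →
      (1 / (5 * b)) * Real.log (covNum (polarSet (t • prodBody L))
          ((16 * a) • polarSet (prodBody K)))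
        ≤ Real.log (covNum (prodBody K) (t • prodBody L)) ∧
      Real.log (covNum (prodBody K) (t • prodBody L))
        ≤ (5 * b) * Real.log (covNum (polarSet (t • prodBody L))
            ((16 * a)⁻¹ • polarSet (prodBody K))) :=
  duality_prod K L hK hL a b ha hb hdual

end Vale.Agent.Results.P126.ProductStability
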