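import Vale.Agent.Lib.P126.Final

namespace Vale.Agent.Results.P126.Tensorization

open Vale.Agent.Lib.P126
open scoped Pointwise

/-- Unconditional tensorization of covering numbers for finite products of origin-symmetric
convex bodies and for the polars of such products, with absolute exponents and scale factors
that do not depend on the number of factors. -/
theorem result {ι : Type} [Fintype ι] (n : ι → ℕ)
    (K L : ∀ i, Set (EuclideanSpace ℝ (Fin (n i))))
    (hK : ∀ i, IsSymmBody (K i)) (hL : ∀ i, IsSymmBody (L i)) (s : ℝ) (hs : 0 < s) :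
    (∏ i, covNum (K i) ((2:ℝ) • L i) ≤ covNum (prodBody K) (prodBody L)) ∧
    (covNum (prodBody K) (prodBody L) ≤ ∏ i, covNum (K i) (L i)) ∧
    (∏ i, covNum (polarSet (L i)) (s • polarSet (K i))
      ≤ covNum (polarSet (prodBody L)) ((s / 16) • polarSet (prodBody K)) ^ 4) ∧
    (covNum (polarSet (prodBody L)) ((2 * s) • polarSet (prodBody K))
      ≤ ∏ i, covNum (polarSet (L i)) (s • polarSet (K i)) ^ 5) := by
  refine ⟨prod_covNum_two_le K L hK hL, covNum_prod_le K L hK hL, ?_, ?_⟩
  · have h := prod_covNum_polar_le K L hK hL s⁻¹ (inv_pos.mpr hs)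
    rw [inv_inv, show (16 * s⁻¹)⁻¹ = s / 16 by field_simp] at h
    exact_mod_cast h
  · have h := covNum_polar_prod_le K L hK hL s hs
    exact_mod_cast h

end Vale.Agent.Results.P126.Tensorization
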